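import Vale.Agent.Lib.P355.Main

namespace Vale.Agent.Results.P355.NormCriterion

open Vale.Agent.Lib.P355

/-- Let `K` be a subfield of `ℂ` stable under complex conjugation in which `6` is not a norm
`z * conj z`. Then three pairwise mutually unbiased orthonormal bases of `ℂ^6` never contain one
vector each whose ray is defined over `K`; in particular, if the first basis is the standard
basis, two further mutually unbiased bases cannot both contain such a vector. -/
theorem result (K : Subfield ℂ) (hK : ∀ z ∈ K, (starRingEnd ℂ) z ∈ K)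
    (h6 : ∀ z ∈ K, Complex.normSq z ≠ 6) :
    (∀ B₁ B₂ B₃ : OrthonormalBasis (Fin 6) ℂ (EuclideanSpace ℂ (Fin 6)),
      Unbiased B₁ B₂ → Unbiased B₂ B₃ → Unbiased B₁ B₃ → ∀ i j k : Fin 6,
      ¬ (DefinedOver K (B₁ i) ∧ DefinedOver K (B₂ j) ∧ DefinedOver K (B₃ k))) ∧
    (∀ B₂ B₃ : OrthonormalBasis (Fin 6) ℂ (EuclideanSpace ℂ (Fin 6)),
      Unbiased (EuclideanSpace.basisFun (Fin 6) ℂ) B₂ →
      Unbiased (EuclideanSpace.basisFun (Fin 6) ℂ) B₃ → Unbiased B₂ B₃ → ∀ j k : Fin 6,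
      ¬ (DefinedOver K (B₂ j) ∧ DefinedOver K (B₃ k))) :=
  ⟨fun B₁ B₂ B₃ h12 h23 h13 i j k => criterion K hK h6 B₁ B₂ B₃ h12 h23 h13 i j k,
    fun B₂ B₃ h12 h13 h23 j k => criterion_std K hK h6 B₂ B₃ h12 h13 h23 j k⟩

end Vale.Agent.Results.P355.NormCriterion
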