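import Vale.Agent.Lib.P355.Main

namespace Vale.Agent.Results.P355.QuadField

open Vale.Agent.Lib.P355

/-- Let `m` be a natural number with `m ≡ 1 (mod 3)` or `m ≡ 3 (mod 8)` (for instance `m = 1`
or `m = 3`) and let `K = ℚ(√-m)` be the subfield of `ℂ` generated by `√m * i`. Then three pairwise
mutually unbiased orthonormal bases of `ℂ^6` never contain one vector each whose ray is defined
over `K`; in particular, if the first basis is the standard basis, two further mutually unbiased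
bases cannot both contain such a vector. -/
theorem result (m : ℕ) (hm : m % 3 = 1 ∨ m % 8 = 3) :
    (∀ B₁ B₂ B₃ : OrthonormalBasis (Fin 6) ℂ (EuclideanSpace ℂ (Fin 6)),
      Unbiased B₁ B₂ → Unbiased B₂ B₃ → Unbiased B₁ B₃ → ∀ i j k : Fin 6,
      ¬ (DefinedOver (Subfield.closure {((Real.sqrt m : ℝ) : ℂ) * Complex.I}) (B₁ i) ∧
         DefinedOver (Subfield.closure {((Real.sqrt m : ℝ) : ℂ) * Complex.I}) (B₂ j) ∧
         DefinedOver (Subfield.closure {((Real.sqrt m : ℝ) : ℂ) * Complex.I}) (B₃ k))) ∧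
    (∀ B₂ B₃ : OrthonormalBasis (Fin 6) ℂ (EuclideanSpace ℂ (Fin 6)),
      Unbiased (EuclideanSpace.basisFun (Fin 6) ℂ) B₂ →
      Unbiased (EuclideanSpace.basisFun (Fin 6) ℂ) B₃ → Unbiased B₂ B₃ → ∀ j k : Fin 6,
      ¬ (DefinedOver (Subfield.closure {((Real.sqrt m : ℝ) : ℂ) * Complex.I}) (B₂ j) ∧
         DefinedOver (Subfield.closure {((Real.sqrt m : ℝ) : ℂ) * Complex.I}) (B₃ k))) :=
  ⟨fun B₁ B₂ B₃ h12 h23 h13 i j k =>
      criterion _ (conj_mem m) (normSq_ne_six m hm) B₁ B₂ B₃ h12 h23 h13 i j k,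
    fun B₂ B₃ h12 h13 h23 j k =>
      criterion_std _ (conj_mem m) (normSq_ne_six m hm) B₂ B₃ h12 h13 h23 j k⟩

end Vale.Agent.Results.P355.QuadField
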